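import Vale.Agent.P284.H625.N.SumS

/-!
# P284 (helper551), program N, module N6 (SUM): P4 and P4b

The sum of the translates of the relative form is equivariant under the whole group `Γ`.
-/

open scoped Manifold ContDiff Topology ComplexOrder InnerProductSpace
open Filter Set Metric

noncomputable section

set_option linter.unusedSectionVars false

namespace Vale.Agent.P284.H551.N6

open Vale.Agent.P272.K Vale.Agent.P284.H894 Vale.Agent.P284.H894.G Vale.Agent.P284.H894.W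
  Vale.Agent.P284.H573 Vale.Agent.P284.H619 Vale.Agent.P284.H501 Vale.Agent.P284.H501.Core
  Vale.Agent.P284.H885 Vale.Agent.P284.H625.N Vale.Agent.P284.H213.Grp Vale.Agent.P284.H213.Q

section
variable {n q : ℕ} {X : Type} [TopologicalSpace X] [ChartedSpace (Cm n) X]
  {E : Type} [TopologicalSpace E] {p : E → X} {F : E → Cm q}
  {w : Chart n X → Cm n → Matrix (Fin n) (Fin n) ℂ} {B : ℝ}

/-- a representative of an affinely equivariant map at a translated point -/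
theorem rep_aff {Γ : Type} [Group Γ] [MulAction Γ E] (hp : IsCoveringMap p)
    (hpg : ∀ (g : Γ) (y : E), p (g • y) = p y) (hcg : ∀ g : Γ, Continuous fun y : E => g • y)
    (hF : HolB p w F B) {A : Γ → (Cm q ≃ₗ[ℂ] Cm q)} {a : Γ → Cm q}
    (hA : ∀ γ y, F (γ • y) = A γ (F y) + a γ) (γ : Γ) {y : E} {e : Chart n X} (he : At e (p y))
    {f : Cm n → Cm q} (hf : H501.Rep p F y e f) :
    H501.Rep p F (γ • y) e (fun z => A γ (f z) + a γ) := by
  have hAc : AnalyticAt ℂ (fun x : Cm q => A γ x) (f (e (p y))) :=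
    ((A γ : Cm q →ₗ[ℂ] Cm q).toContinuousLinearMap).analyticAt _
  refine ⟨by rw [hpg]; exact (hAc.comp hf.1).add analyticAt_const, ?_⟩
  have he' : At e (p (γ • y)) := by rw [hpg]; exact he
  obtain ⟨f2, hf2⟩ := rep_exists hF (γ • y) e he'
  have h5 : ∀ᶠ y'' in 𝓝 y, f2 (e (p y'')) = A γ (f (e (p y''))) + a γ := by
    have h6 := ((hcg γ).continuousAt (x := y)).eventually hf2.2
    filter_upwards [h6, hf.2] with y'' h7 h8
    rw [hA, hpg] at h7
    rw [← h7, h8]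
  have h6 : ∀ᶠ z in 𝓝 (e (p y)), f2 z = A γ (f z) + a γ := (ep_ev hp.isLocalHomeomorph he).1 h5
  have h7 : ∀ᶠ z in 𝓝 (e (p (γ • y))), f2 z = A γ (f z) + a γ := by rw [hpg]; exact h6
  filter_upwards [hf2.2, (ep_ev hp.isLocalHomeomorph he').2 h7] with y'' h8 h9
  rw [h8, h9]

/-- its derivative -/
theorem fderiv_aff (T : Cm q ≃ₗ[ℂ] Cm q) (b : Cm q) {f : Cm n → Cm q} {z : Cm n}
    (hf : DifferentiableAt ℂ f z) (ξ : Cm n) :
    fderiv ℂ (fun z => T (f z) + b) z ξ = T (fderiv ℂ f z ξ) := by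
  have h1 : HasFDerivAt (fun z => T (f z) + b)
      (((T : Cm q →ₗ[ℂ] Cm q).toContinuousLinearMap).comp (fderiv ℂ f z)) z :=
    (((T : Cm q →ₗ[ℂ] Cm q).toContinuousLinearMap).hasFDerivAt.comp z hf.hasFDerivAt).add_const b
  rw [h1.fderiv]
  rfl

section
variable {Γ : Type} [Group Γ] [MulAction Γ E] {A : Γ → (Cm q ≃ₗ[ℂ] Cm q)} {a : Γ → Cm q}

/-- regular points are preserved -/
theorem reg_aff (hp : IsCoveringMap p)
    (hpg : ∀ (g : Γ) (y : E), p (g • y) = p y) (hcg : ∀ g : Γ, Continuous fun y : E => g • y)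
    (hF : HolB p w F B) (hA : ∀ γ y, F (γ • y) = A γ (F y) + a γ) (γ : Γ) {y : E}
    (hy : Reg (n := n) p F y) : Reg (n := n) p F (γ • y) := by
  intro e f he hf
  have he0 : At e (p y) := by rw [← hpg γ]; exact he
  obtain ⟨f₀, hf₀⟩ := rep_exists hF y e he0
  have h1 := rep_aff hp hpg hcg hF hA γ he0 hf₀
  have h2 : f =ᶠ[𝓝 (e (p (γ • y)))] fun z => A γ (f₀ z) + a γ := by
    refine (ep_ev hp.isLocalHomeomorph he).1 ?_
    filter_upwards [hf, h1.2] with y' h3 h4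
    rw [← h3, h4]
  rw [h2.fderiv_eq]
  intro x
  obtain ⟨ξ, hξ⟩ := hy e f₀ he0 hf₀.2 ((A γ).symm x)
  refine ⟨ξ, ?_⟩
  rw [hpg, fderiv_aff _ _ hf₀.1.differentiableAt, hξ, LinearEquiv.apply_symm_apply]

/-- vertical vectors are preserved -/
theorem vs_aff (hp : IsCoveringMap p)
    (hpg : ∀ (g : Γ) (y : E), p (g • y) = p y) (hcg : ∀ g : Γ, Continuous fun y : E => g • y)
    (hF : HolB p w F B) (hA : ∀ γ y, F (γ • y) = A γ (F y) + a γ) (γ : Γ) {y : E}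
    {e : Chart n X} (he : At e (p y)) {ξ : Cm n} (hξ : ξ ∈ VS p F y e) :
    ξ ∈ VS p F (γ • y) e := by
  obtain ⟨f₀, hf₀⟩ := rep_exists hF y e he
  have h1 := rep_aff hp hpg hcg hF hA γ he hf₀
  have he' : At e (p (γ • y)) := by rw [hpg]; exact he
  rw [mem_VS hp he' (f := fun z => A γ (f₀ z) + a γ) h1.2, hpg, fderiv_aff _ _ hf₀.1.differentiableAt,
    (mem_VS hp he hf₀.2).1 hξ, map_zero]

end

section
variable {G : Type} [Group G] [MulAction G E] {W : Type} [NormedAddCommGroup W]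
  [InnerProductSpace ℂ W] {π : G →* (W ≃ₗᵢ[ℂ] W)} {S : E → Chart n X → Cm n [⋀^Fin (q + 1)]→L[ℂ] W}
  {Θ : E → Chart n X → (Cm n →L[ℂ] W)}

/-- equivariance of the relative form, for any group of deck transformations -/
theorem th_equi [IsManifold 𝓘(ℂ, Cm n) ω X] (hp : IsCoveringMap p)
    (hpg : ∀ (g : G) (y : E), p (g • y) = p y) (hcg : ∀ g : G, Continuous fun y : E => g • y)
    (hF : HolB p w F B) {c : G → Cm q} (hc : ∀ g y, F (g • y) = F y + c g)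
    (hS : SRel p F π S Θ) (g : G) {y : E} {e : Chart n X} (hy : Reg (n := n) p F y)
    (he : At e (p y)) {ξ : Cm n} (hξ : ξ ∈ VS p F y e) : Θ (g • y) e ξ = π g (Θ y e ξ) := by
  have hp' := hp.isLocalHomeomorph
  obtain ⟨f, hf⟩ := rep_exists hF y e he
  have hsu := (H338.reg_iff hp' he hf).1 hy
  obtain ⟨Θ', hΘ'⟩ := exists_isW (hS.relP he hf hsu) hsu
  have hr := rep_shift hp (hpg g) (hcg g) (hc g) (rep_exists hF) he hf
  have hd : fderiv ℂ (fun z => f z + c g) (e (p (g • y))) = fderiv ℂ f (e (p y)) := by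
    rw [hpg, fderiv_add_const]
  have hW : IsW (fderiv ℂ (fun z => f z + c g) (e (p (g • y)))) (S (g • y) e)
      ((π g).toContinuousLinearEquiv.toContinuousLinearMap.comp Θ') := by
    intro ζ
    rw [hS.equi g y e he, hΘ', hd]
    unfold gf
    rw [_root_.map_smul, map_sum]
    congr 1
    refine Finset.sum_congr rfl fun σ _ => ?_
    rw [_root_.map_smul, _root_.map_smul]
    rfl
  have hξ' := (mem_VS' hp he hf).1 hξ
  have he' : At e (p (g • y)) := by rw [hpg]; exact he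
  rw [hS.th (g • y) e _ he' hr (by rw [hd]; exact hsu) _ hW ξ (by rw [hd]; exact hξ'),
    hS.th y e f he hf hsu _ hΘ' ξ hξ']
  rfl

end

section
variable {Γ : Type} [Group Γ] [MulAction Γ E] {W : Type} [NormedAddCommGroup W]
  [InnerProductSpace ℂ W] {G : Subgroup Γ} {π : G →* (W ≃ₗᵢ[ℂ] W)}
  {S : E → Chart n X → Cm n [⋀^Fin (q + 1)]→L[ℂ] W} {Θ : E → Chart n X → (Cm n →L[ℂ] W)}
  {A : Γ → (Cm q ≃ₗ[ℂ] Cm q)} {a : Γ → Cm q} {c : G → Cm q}

theorem gal_p (hG : IsGalois Γ p) (γ : Γ) (y : E) : p (γ • y) = p y :=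
  ((hG.orb y (γ • y)).2 ⟨γ, rfl⟩).symm

/-- **P4**: the sum of the translates of `Θ` is equivariant under `Γ` -/
theorem sumT_equi [IsManifold 𝓘(ℂ, Cm n) ω X] (hG : IsGalois Γ p) [G.Normal] [Fintype (Γ ⧸ G)]
    (hF : HolB p w F B) (hA : ∀ γ y, F (γ • y) = A γ (F y) + a γ)
    (hc : ∀ (g : G) y, F ((g : Γ) • y) = F y + c g) (hS : SRel p F π S Θ) (γ : Γ) :
    ∀ y e, Reg (n := n) p F y → At e (p y) → ∀ ξ ∈ VS p F y e,
      sumT G Θ (γ • y) e ξ = indR G π γ (sumT G Θ y e ξ) := by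
  intro y e hy he ξ hξ
  have hp := hG.cov
  ext i
  rw [sumT_apply, indR_apply, sumT_apply, smul_smul, tr_mul, ← smul_smul]
  exact th_equi (G := G) hp (fun g y => gal_p hG (g : Γ) y) (fun g => hG.cont (g : Γ)) hF hc hS
    (coc G γ i) (reg_aff hp (gal_p hG) hG.cont hF hA _ hy) (by rw [gal_p hG]; exact he)
    (vs_aff hp (gal_p hG) hG.cont hF hA _ he hξ)

/-- **P4b**: the kernel classes are normal in `Γ` -/
theorem map_normal [IsManifold 𝓘(ℂ, Cm n) ω X] (hG : IsGalois Γ p) [hN : G.Normal]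
    [Fintype (Γ ⧸ G)] (hF : HolB p w F B) (hA : ∀ γ y, F (γ • y) = A γ (F y) + a γ)
    (hc : ∀ (g : G) y, F ((g : Γ) • y) = F y + c g) (hS : SRel p F π S Θ) {K : Subgroup Γ}
    (hK : K.Normal) {N₀ : Subgroup G} (hN₀ : ∀ k : G, k ∈ N₀ ↔ (k : Γ) ∈ K ∧
      ∀ y, Reg (n := n) p F y → y ∈ H885.Ker.Fix p F ((indR G π).comp G.subtype) (sumT G Θ) k) :
    (N₀.map G.subtype).Normal := by
  have hp := hG.cov
  refine ⟨fun x hx γ => ?_⟩
  obtain ⟨k, hk, rfl⟩ := Subgroup.mem_map.1 hx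
  have hkG : γ * (k : Γ) * γ⁻¹ ∈ G := hN.conj_mem k k.2 γ
  refine Subgroup.mem_map.2 ⟨⟨_, hkG⟩, ?_, rfl⟩
  obtain ⟨h1, h2⟩ := (hN₀ k).1 hk
  refine (hN₀ _).2 ⟨hK.conj_mem _ h1 γ, fun y hy => ⟨hy, fun e he ξ hξ => ?_⟩⟩
  have hy' : Reg (n := n) p F (γ⁻¹ • y) := reg_aff hp (gal_p hG) hG.cont hF hA _ hy
  have he' : At e (p (γ⁻¹ • y)) := by rw [gal_p hG]; exact he
  have hξ' : ξ ∈ VS p F (γ⁻¹ • y) e := vs_aff hp (gal_p hG) hG.cont hF hA _ he hξ
  have h3 := (h2 _ hy').2 e he' ξ hξ'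
  have h4 := sumT_equi hG hF hA hc hS γ⁻¹ y e hy he ξ hξ
  have h5 := sumT_equi hG hF hA hc hS γ (γ⁻¹ • y) e hy' he' ξ hξ'
  rw [smul_inv_smul] at h5
  have h6 : indR G π (γ * (k : Γ) * γ⁻¹) (sumT G Θ y e ξ) =
      indR G π γ (indR G π (k : Γ) (indR G π γ⁻¹ (sumT G Θ y e ξ))) := by
    rw [map_mul, map_mul]
    rfl
  show indR G π (γ * (k : Γ) * γ⁻¹) (sumT G Θ y e ξ) = sumT G Θ y e ξ
  rw [h6, ← h4]
  have h7 : indR G π (k : Γ) (sumT G Θ (γ⁻¹ • y) e ξ) = sumT G Θ (γ⁻¹ • y) e ξ := h3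
  rw [h7, ← h5]

end

end

end Vale.Agent.P284.H551.N6
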